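import Vale.Agent.P205.Full.Main
import Vale.Agent.P205.Full.Klein.Main

/-!
Every smooth Riemannian metric on the torus and on the Klein bottle immerses smoothly and
isometrically in four-space.
-/

open scoped ContDiff
open Vale.Agent.P205.Full

namespace Vale.Agent.Results.P205.TorusKleinAllMetrics

theorem injective_of_metric {T : ℝ × ℝ →L[ℝ] EuclideanSpace ℝ (Fin 4)} {E F G : ℝ} (hpos : 0 < E)
    (hdet : F ^ 2 < E * G)
    (hm : ∀ v w : ℝ × ℝ, inner ℝ (T v) (T w) =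
      E * (v.1 * w.1) + F * (v.1 * w.2 + v.2 * w.1) + G * (v.2 * w.2)) :
    Function.Injective T := by
  refine (injective_iff_map_eq_zero _).2 fun v hv => ?_
  have h0 := hm v v
  rw [hv, inner_zero_left] at h0
  have hsq : (E * v.1 + F * v.2) ^ 2 + (E * G - F ^ 2) * v.2 ^ 2 = 0 := by
    linear_combination -E * h0
  have hd : 0 < E * G - F ^ 2 := sub_pos.2 hdet
  have hv2 : v.2 = 0 := by
    by_contra hne
    nlinarith [sq_nonneg (E * v.1 + F * v.2), mul_pos hd (pow_two_pos_of_ne_zero hne)]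
  have hv1 : v.1 = 0 := by
    by_contra hne
    rw [hv2] at h0
    nlinarith [mul_pos hpos (pow_two_pos_of_ne_zero hne)]
  exact Prod.ext hv1 hv2

/-- Every smooth metric on the torus `ℝ² / ℤ²`, and every smooth metric on the Klein bottle
generated by `(x, y) ↦ (x + 1/2, -y)` and `(x, y) ↦ (x, y + 1)`, is induced by a smooth immersion
into `ℝ⁴`. -/
theorem result :
    (∀ E F G : ℝ × ℝ → ℝ, ContDiff ℝ ∞ E → ContDiff ℝ ∞ F → ContDiff ℝ ∞ G →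
      (∀ x, E (x + (1, 0)) = E x ∧ F (x + (1, 0)) = F x ∧ G (x + (1, 0)) = G x) →
      (∀ x, E (x + (0, 1)) = E x ∧ F (x + (0, 1)) = F x ∧ G (x + (0, 1)) = G x) →
      (∀ x, 0 < E x) → (∀ x, F x ^ 2 < E x * G x) →
      ∃ Φ : ℝ × ℝ → EuclideanSpace ℝ (Fin 4), ContDiff ℝ ∞ Φ ∧
        (∀ x, Φ (x + (1, 0)) = Φ x ∧ Φ (x + (0, 1)) = Φ x) ∧
        ∀ x : ℝ × ℝ, Function.Injective (fderiv ℝ Φ x) ∧ ∀ v w : ℝ × ℝ,
          inner ℝ (fderiv ℝ Φ x v) (fderiv ℝ Φ x w)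
            = E x * (v.1 * w.1) + F x * (v.1 * w.2 + v.2 * w.1) + G x * (v.2 * w.2)) ∧
    (∀ E F G : ℝ × ℝ → ℝ, ContDiff ℝ ∞ E → ContDiff ℝ ∞ F → ContDiff ℝ ∞ G →
      (∀ x : ℝ × ℝ, E (x.1 + 1 / 2, -x.2) = E x ∧ F (x.1 + 1 / 2, -x.2) = -F x ∧
        G (x.1 + 1 / 2, -x.2) = G x) →
      (∀ x, E (x + (0, 1)) = E x ∧ F (x + (0, 1)) = F x ∧ G (x + (0, 1)) = G x) →
      (∀ x, 0 < E x) → (∀ x, F x ^ 2 < E x * G x) →
      ∃ Φ : ℝ × ℝ → EuclideanSpace ℝ (Fin 4), ContDiff ℝ ∞ Φ ∧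
        (∀ x : ℝ × ℝ, Φ (x.1 + 1 / 2, -x.2) = Φ x ∧ Φ (x + (0, 1)) = Φ x) ∧
        ∀ x : ℝ × ℝ, Function.Injective (fderiv ℝ Φ x) ∧ ∀ v w : ℝ × ℝ,
          inner ℝ (fderiv ℝ Φ x v) (fderiv ℝ Φ x w)
            = E x * (v.1 * w.1) + F x * (v.1 * w.2 + v.2 * w.1) + G x * (v.2 * w.2)) := by
  refine ⟨fun E F G hE hF hG p1 p2 hpos hdet => ?_, fun E F G hE hF hG pg p2 hpos hdet => ?_⟩
  · obtain ⟨Φ, hΦ, hm⟩ := exists_torus_immersion (E := E) (F := F) (G := G)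
      ⟨hE, ⟨fun x => (p1 x).1, fun x => (p2 x).1⟩⟩
      ⟨hF, ⟨fun x => (p1 x).2.1, fun x => (p2 x).2.1⟩⟩
      ⟨hG, ⟨fun x => (p1 x).2.2, fun x => (p2 x).2.2⟩⟩ hpos hdet
    exact ⟨Φ, hΦ.smooth, fun x => ⟨hΦ.per.add1 x, hΦ.per.add2 x⟩,
      fun x => ⟨injective_of_metric (hpos x) (hdet x) (hm x), hm x⟩⟩
  · -- the square of the glide is the first translation
    have sq : ∀ x : ℝ × ℝ, x + e1 = (x.1 + 1 / 2 + 1 / 2, -(-x.2)) := by
      intro x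
      simp only [e1, Prod.add_def, neg_neg, add_zero]
      norm_num [add_assoc]
    have per1 : ∀ (g : ℝ × ℝ → ℝ) (s : ℝ), s * s = 1 →
        (∀ x : ℝ × ℝ, g (x.1 + 1 / 2, -x.2) = s * g x) → ∀ x, g (x + e1) = g x := by
      intro g s hs hg x
      rw [sq x]
      exact (hg (x.1 + 1 / 2, -x.2)).trans (by rw [hg x, ← mul_assoc, hs, one_mul])
    obtain ⟨Φ, hΦ, hΦg, hΦ2, hm⟩ := Klein.exists_klein_immersion (E := E) (F := F) (H := G)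
      ⟨hE, ⟨per1 E 1 (one_mul 1) fun x => by rw [one_mul]; exact (pg x).1, fun x => (p2 x).1⟩⟩
      ⟨hF, ⟨per1 F (-1) (by norm_num) fun x => by rw [neg_one_mul]; exact (pg x).2.1,
        fun x => (p2 x).2.1⟩⟩
      ⟨hG, ⟨per1 G 1 (one_mul 1) fun x => by rw [one_mul]; exact (pg x).2.2,
        fun x => (p2 x).2.2⟩⟩
      hpos hdet (fun x => (pg x).1) (fun x => (pg x).2.1) (fun x => (pg x).2.2)
    exact ⟨Φ, hΦ, fun x => ⟨hΦg x, hΦ2 x⟩,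
      fun x => ⟨injective_of_metric (hpos x) (hdet x) (hm x), hm x⟩⟩

end Vale.Agent.Results.P205.TorusKleinAllMetrics
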